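import Vale.Agent.P128.Bridge.Compact.Sets

/-!
# P128 bridge B3a, part 2: limits of the functions

Normalised by a base point in each component of the complement of the limit set, the functions
converge locally uniformly along a subsequence.
-/

open MeasureTheory Set Metric Filter
open scoped ENNReal Topology Real RealInnerProductSpace

noncomputable section

namespace Vale.Agent.P128.Bridge

/-- A point chosen in each set. -/
def setRep (S : Set ℂ) : ℂ := Classical.epsilon fun z => z ∈ S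

/-- A base point in the component of `z` in the complement of `K`. -/
def compBase (K : Set ℂ) (z : ℂ) : ℂ := setRep (connectedComponentIn Kᶜ z)

/-- `u` minus its value at the base point of the component. -/
def normFun (K : Set ℂ) (u : ℂ → ℝ) (z : ℂ) : ℝ := u z - u (compBase K z)

variable {K : Set ℂ} {z y : ℂ}

theorem compBase_mem (hz : z ∉ K) : compBase K z ∈ connectedComponentIn Kᶜ z :=
  Classical.epsilon_spec (p := fun w => w ∈ connectedComponentIn Kᶜ z)
    ⟨z, mem_connectedComponentIn hz⟩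

theorem compBase_eq (hy : y ∈ connectedComponentIn Kᶜ z) : compBase K y = compBase K z := by
  rw [compBase, compBase, connectedComponentIn_eq hy]

theorem normFun_sub_normFun (u : ℂ → ℝ) (hy : y ∈ connectedComponentIn Kᶜ z) :
    normFun K u y - normFun K u z = u y - u z := by
  simp only [normFun, compBase_eq hy]
  ring

theorem mem_component_of_ball {R : ℝ} (hsub : ball z R ⊆ Kᶜ) (hy : y ∈ ball z R) :
    y ∈ connectedComponentIn Kᶜ z :=
  (convex_ball z R).isPreconnected.subset_connectedComponentIn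
    (mem_ball_self (lt_of_le_of_lt dist_nonneg (mem_ball.1 hy))) hsub hy

theorem hasFDerivAt_normFun (hK : IsClosed K) {u : ℂ → ℝ} {L : ℂ →L[ℝ] ℝ} (hz : z ∉ K)
    (hu : HasFDerivAt u L z) : HasFDerivAt (normFun K u) L z := by
  have heq : normFun K u =ᶠ[𝓝 z] fun y => u y - u (compBase K z) := by
    filter_upwards [hK.isOpen_compl.connectedComponentIn.mem_nhds (mem_connectedComponentIn hz)]
      with y hy
    simp only [normFun, compBase_eq hy]
  exact (hu.sub_const _).congr_of_eventuallyEq heq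

variable {Uj Kj : ℕ → Set ℂ} {uj : ℕ → ℂ → ℝ} {Gj : ℕ → ℂ → ℂ} {Aj Mj Λj : ℕ → ℝ}

/-- Equicontinuity off the limit set. -/
theorem BlowData.exists_holder (hH : HolderSpec) (h : BlowData Uj Kj uj Gj Aj Mj Λj)
    (hK : IsClosed K) (hconv : LocConv univ Kj K) :
    ∃ C : ℝ, 0 ≤ C ∧ ∀ x ∉ K, ∃ R : ℝ, 0 < R ∧ ball x R ⊆ Kᶜ ∧
      ∀ᶠ j in atTop, ∀ y, dist x y < R → |uj j x - uj j y| ≤ C * Real.sqrt (dist x y) := by
  obtain ⟨C, hC, hhol⟩ := hH
  refine ⟨C, hC, fun x hx => ?_⟩
  obtain ⟨e, he, hsub⟩ := nhds_basis_closedBall.mem_iff.1 (hK.isOpen_compl.mem_nhds hx)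
  refine ⟨e / 4, by positivity,
    (ball_subset_closedBall.trans (closedBall_subset_closedBall (by linarith))).trans hsub, ?_⟩
  filter_upwards [h.eventually_regular hK hconv (isCompact_closedBall x e) hsub,
    h.eventually_mul_le e one_pos] with j hj hΛ y hy
  exact hhol _ _ _ _ _ _ _ (h.alm j) x e he hj hΛ y hy.le

/-- Differences are bounded inside a component. -/
theorem BlowData.bounded_sub (hH : HolderSpec) (h : BlowData Uj Kj uj Gj Aj Mj Λj)
    (hK : IsClosed K) (hconv : LocConv univ Kj K) (hz : z ∉ K)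
    (hy : y ∈ connectedComponentIn Kᶜ z) :
    ∃ B : ℝ, ∀ᶠ j in atTop, |uj j z - uj j y| ≤ B := by
  obtain ⟨C, hC, hloc⟩ := h.exists_holder hH hK hconv
  refine (isPreconnected_connectedComponentIn (x := z) (F := Kᶜ)).induction₂
    (fun a b => ∃ B : ℝ, ∀ᶠ j in atTop, |uj j a - uj j b| ≤ B) ?_ ?_ ?_
    (mem_connectedComponentIn hz) hy
  · intro x hx
    obtain ⟨R, hR, -, hev⟩ := hloc x (connectedComponentIn_subset _ _ hx)
    filter_upwards [mem_nhdsWithin_of_mem_nhds (ball_mem_nhds x hR)] with w hw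
    exact ⟨C * Real.sqrt (dist x w), hev.mono fun j hj => hj w (by rwa [dist_comm])⟩
  · rintro a b c - - - ⟨B, hB⟩ ⟨B', hB'⟩
    exact ⟨B + B', by
      filter_upwards [hB, hB'] with j h1 h2
      exact (abs_sub_le _ (uj j b) _).trans (add_le_add h1 h2)⟩
  · rintro a b - - ⟨B, hB⟩
    exact ⟨B, hB.mono fun j hj => by rwa [abs_sub_comm]⟩

/-- Selection of a locally uniformly convergent subsequence. -/
theorem BlowData.exists_limit_fun (hH : HolderSpec) (h : BlowData Uj Kj uj Gj Aj Mj Λj)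
    (hK : IsClosed K) (hconv : LocConv univ Kj K) :
    ∃ φ : ℕ → ℕ, StrictMono φ ∧ ∃ v : ℂ → ℝ, ContinuousOn v Kᶜ ∧
      ∀ S : Set ℂ, IsCompact S → S ⊆ Kᶜ →
        TendstoUniformlyOn (fun k => normFun K (uj (φ k))) v atTop S := by
  classical
  obtain ⟨C, hC, hloc⟩ := h.exists_holder hH hK hconv
  let q : ℕ → ℂ := TopologicalSpace.denseSeq ℂ
  let w : ℕ → ℕ → ℝ := fun j n => if q n ∈ K then 0 else normFun K (uj j) (q n)
  have hb : ∀ n, ∃ B : ℝ, ∀ j, w j n ∈ Icc (-B) B := by
    intro n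
    by_cases hn : q n ∈ K
    · exact ⟨0, fun j => by simp [w, hn]⟩
    obtain ⟨B, hB⟩ := h.bounded_sub hH hK hconv hn (compBase_mem hn)
    have hbdd : IsBoundedUnder (· ≤ ·) atTop fun j => |w j n| :=
      ⟨B, eventually_map.2 (hB.mono fun j hj => by simpa [w, hn, normFun] using hj)⟩
    obtain ⟨B', hB'⟩ := hbdd.bddAbove_range
    exact ⟨B', fun j => abs_le.1 (hB' ⟨j, rfl⟩)⟩
  choose B hB using hb
  obtain ⟨a, -, φ, hφ, hlim⟩ :=
    (isCompact_univ_pi fun n => isCompact_Icc).tendsto_subseq (x := w) fun j n _ => hB n j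
  have hq : ∀ n, q n ∉ K → Tendsto (fun k => normFun K (uj (φ k)) (q n)) atTop (𝓝 (a n)) := by
    intro n hn
    have := tendsto_pi_nhds.1 hlim n
    simpa [w, hn, Function.comp_def] using this
  have hloc' : ∀ x ∉ K, ∃ R : ℝ, 0 < R ∧ ball x R ⊆ Kᶜ ∧ ∀ᶠ k in atTop, ∀ y, dist x y < R →
      |normFun K (uj (φ k)) x - normFun K (uj (φ k)) y| ≤ C * Real.sqrt (dist x y) := by
    intro x hx
    obtain ⟨R, hR, hsub, hev⟩ := hloc x hx
    refine ⟨R, hR, hsub, (hφ.tendsto_atTop.eventually hev).mono fun k hk y hy => ?_⟩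
    rw [abs_sub_comm,
      normFun_sub_normFun _ (mem_component_of_ball hsub (by rwa [mem_ball, dist_comm])),
      abs_sub_comm]
    exact hk y hy
  have hsmall : ∀ ε : ℝ, 0 < ε → ∃ δ : ℝ, 0 < δ ∧ ∀ s : ℝ, s < δ → C * Real.sqrt s < ε := by
    intro ε hε
    have hc : Continuous fun s : ℝ => C * Real.sqrt s := by fun_prop
    obtain ⟨δ, hδ, hd⟩ := Metric.continuous_iff.1 hc 0 ε hε
    refine ⟨δ, hδ, fun s hs => ?_⟩
    rcases le_or_gt 0 s with h0 | h0
    · have h1 := hd s (by simpa [abs_of_nonneg h0] using hs)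
      simp only [Real.dist_eq, Real.sqrt_zero, mul_zero, sub_zero] at h1
      exact lt_of_le_of_lt (le_abs_self _) h1
    · simpa [Real.sqrt_eq_zero'.2 h0.le] using hε
  have hex : ∀ x, ∃ l, x ∉ K → Tendsto (fun k => normFun K (uj (φ k)) x) atTop (𝓝 l) := by
    intro x
    by_cases hx : x ∈ K
    · exact ⟨0, fun h' => absurd hx h'⟩
    have hcau : CauchySeq fun k => normFun K (uj (φ k)) x := by
      refine Metric.cauchySeq_iff.2 fun ε hε => ?_
      obtain ⟨R, hR, hsub, hev⟩ := hloc' x hx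
      obtain ⟨δ, hδ, hd⟩ := hsmall (ε / 3) (by positivity)
      obtain ⟨n, hn⟩ : ∃ n, dist x (q n) < min R δ :=
        (TopologicalSpace.denseRange_denseSeq ℂ).exists_dist_lt x (lt_min hR hδ)
      have hnK : q n ∉ K := hsub (by
        rw [mem_ball, dist_comm]
        exact hn.trans_le (min_le_left _ _))
      obtain ⟨N₁, hN₁⟩ := eventually_atTop.1 hev
      obtain ⟨N₂, hN₂⟩ := Metric.cauchySeq_iff.1 (hq n hnK).cauchySeq (ε / 3) (by positivity)
      refine ⟨max N₁ N₂, fun k hk l hl => ?_⟩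
      have h1 := hN₁ k (le_of_max_le_left hk) (q n) (hn.trans_le (min_le_left _ _))
      have h2 := hN₁ l (le_of_max_le_left hl) (q n) (hn.trans_le (min_le_left _ _))
      have h3 := hN₂ k (le_of_max_le_right hk) l (le_of_max_le_right hl)
      have h4 := hd _ (hn.trans_le (min_le_right R δ))
      simp only [Real.dist_eq, abs_le, abs_lt] at *
      constructor <;> linarith
    obtain ⟨l, hl⟩ := cauchySeq_tendsto_of_complete hcau
    exact ⟨l, fun _ => hl⟩
  choose v hv using hex
  have hvhol : ∀ x ∉ K, ∃ R : ℝ, 0 < R ∧ ball x R ⊆ Kᶜ ∧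
      (∀ y, dist x y < R → |v x - v y| ≤ C * Real.sqrt (dist x y)) ∧
      ∀ᶠ k in atTop, ∀ y, dist x y < R →
        |normFun K (uj (φ k)) x - normFun K (uj (φ k)) y| ≤ C * Real.sqrt (dist x y) := by
    intro x hx
    obtain ⟨R, hR, hsub, hev⟩ := hloc' x hx
    refine ⟨R, hR, hsub, fun y hy => ?_, hev⟩
    exact le_of_tendsto (((hv x hx).sub (hv y (hsub (by rwa [mem_ball, dist_comm])))).abs)
      (hev.mono fun k hk => hk y hy)
  refine ⟨φ, hφ, v, ?_, fun S hS hSK => ?_⟩
  · intro x hx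
    obtain ⟨R, hR, -, hh, -⟩ := hvhol x hx
    refine (Metric.continuousAt_iff.2 fun ε hε => ?_).continuousWithinAt
    obtain ⟨δ, hδ, hd⟩ := hsmall ε hε
    refine ⟨min R δ, lt_min hR hδ, fun {y} hy => ?_⟩
    rw [dist_comm] at hy
    rw [Real.dist_eq, abs_sub_comm]
    exact lt_of_le_of_lt (hh y (hy.trans_le (min_le_left _ _)))
      (hd _ (hy.trans_le (min_le_right _ _)))
  · have hlu : TendstoLocallyUniformlyOn (fun k => normFun K (uj (φ k))) v atTop Kᶜ := by
      rw [Metric.tendstoLocallyUniformlyOn_iff]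
      intro ε hε x hx
      obtain ⟨R, hR, -, hh, hev⟩ := hvhol x hx
      obtain ⟨δ, hδ, hd⟩ := hsmall (ε / 3) (by positivity)
      refine ⟨ball x (min R δ), mem_nhdsWithin_of_mem_nhds (ball_mem_nhds _ (lt_min hR hδ)), ?_⟩
      filter_upwards [hev, Metric.tendsto_nhds.1 (hv x hx) (ε / 3) (by positivity)] with k hk hk' y hy
      rw [mem_ball, dist_comm] at hy
      have h1 := hk y (hy.trans_le (min_le_left _ _))
      have h2 := hh y (hy.trans_le (min_le_left _ _))
      have h3 := hd _ (hy.trans_le (min_le_right R δ))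
      simp only [Real.dist_eq, abs_le, abs_lt] at *
      constructor <;> linarith
    exact (tendstoLocallyUniformlyOn_iff_forall_isCompact hK.isOpen_compl).1 hlu S hSK hS

end Vale.Agent.P128.Bridge
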