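import Vale.Agent.P128.Bridge.Compact.Functions
import Vale.Agent.P128.Bridge.Sobolev

/-!
# P128 bridge B3a, part 3: limits of the gradients

The weak equation makes the gradients Cauchy in `L²` on compact sets avoiding the limit set; a
further subsequence converges almost everywhere, and Fatou gives the rest.
-/

open MeasureTheory Set Metric Filter
open scoped ENNReal Topology Real RealInnerProductSpace

noncomputable section

namespace Vale.Agent.P128.Bridge

theorem enorm_sq_eq (z : ℂ) : ‖z‖ₑ ^ 2 = ENNReal.ofReal (‖z‖ ^ 2) := by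
  rw [← ofReal_norm, ENNReal.ofReal_pow (norm_nonneg _)]

theorem lintegral_enorm_sq_eq {S : Set ℂ} {f : ℂ → ℂ}
    (hf : IntegrableOn (fun x => ‖f x‖ ^ 2) S) :
    ∫⁻ x in S, ‖f x‖ₑ ^ 2 = ENNReal.ofReal (∫ x in S, ‖f x‖ ^ 2) := by
  rw [ofReal_integral_eq_lintegral_ofReal hf (Eventually.of_forall fun _ => sq_nonneg _)]
  simp only [enorm_sq_eq]

theorem gradOf_eq_zero {χ : ℂ → ℝ} {x : ℂ} (hx : x ∉ tsupport χ) : gradOf χ x = 0 := by
  have h : fderiv ℝ χ x = 0 := fderiv_of_notMem_tsupport ℝ hx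
  simp [gradOf, h, Complex.ext_iff]

variable {Uj Kj : ℕ → Set ℂ} {uj : ℕ → ℂ → ℝ} {Gj : ℕ → ℂ → ℂ} {Aj Mj Λj : ℕ → ℝ}
variable {K : Set ℂ} {v : ℂ → ℝ}

/-- The weak equation tested with `χ² (v_j - v_k)`. -/
theorem BlowData.cauchy_bound (h : BlowData Uj Kj uj Gj Aj Mj Λj) (hK : IsClosed K)
    {χ : ℂ → ℝ} (hχ : ContDiff ℝ ((⊤ : ℕ∞) : WithTop ℕ∞) χ) (hχc : HasCompactSupport χ)
    (hχ01 : ∀ z, 0 ≤ χ z ∧ χ z ≤ 1) (hχK : tsupport χ ⊆ Kᶜ) {C : Set ℂ}
    (hC1 : ∀ z ∈ C, χ z = 1) {j k : ℕ} (hj : tsupport χ ⊆ Uj j \ Kj j)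
    (hk : tsupport χ ⊆ Uj k \ Kj k) {η b : ℝ} (hη : 0 ≤ η)
    (hw : ∀ x ∈ tsupport χ, |normFun K (uj j) x - normFun K (uj k) x| ≤ η)
    (hb : ∀ x, ‖gradOf χ x‖ ≤ b) (hCm : MeasurableSet C) :
    ∫⁻ x in C, ‖Gj j x - Gj k x‖ₑ ^ 2 ≤ ENNReal.ofReal
      (2 * (Aj j + Aj k) * (η * volume.real (tsupport χ)) +
        4 * (η * b) ^ 2 * volume.real (tsupport χ)) := by
  classical
  set S := tsupport χ with hS
  have hSc : IsCompact S := hχc
  set D : ℂ → ℂ := fun x => Gj j x - Gj k x with hD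
  set w : ℂ → ℝ := fun x => normFun K (uj j) x - normFun K (uj k) x with hwdef
  set ψ : ℂ → ℝ := fun x => χ x * χ x * w x with hψ
  set Gψ : ℂ → ℂ := fun x => (χ x * χ x) • D x + (2 * (χ x * w x)) • gradOf χ x with hGψ
  have hχ0 : ∀ x ∉ S, χ x = 0 := fun x hx => image_eq_zero_of_notMem_tsupport hx
  have hWo : IsOpen ((Uj j \ Kj j) ∩ (Uj k \ Kj k) ∩ Kᶜ) :=
    ((h.alm j).isOpen_compl.inter (h.alm k).isOpen_compl).inter hK.isOpen_compl
  have hSW : S ⊆ (Uj j \ Kj j) ∩ (Uj k \ Kj k) ∩ Kᶜ := fun x hx => ⟨⟨hj hx, hk hx⟩, hχK hx⟩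
  have hwd : ∀ x ∈ (Uj j \ Kj j) ∩ (Uj k \ Kj k) ∩ Kᶜ, HasFDerivAt w (innerSL ℝ (D x)) x := by
    intro x hx
    rw [hD, map_sub]
    exact (hasFDerivAt_normFun hK hx.2 ((h.alm j).hasGrad x hx.1.1)).sub
      (hasFDerivAt_normFun hK hx.2 ((h.alm k).hasGrad x hx.1.2))
  have hDc : ContinuousOn D ((Uj j \ Kj j) ∩ (Uj k \ Kj k) ∩ Kᶜ) :=
    ((h.alm j).contGrad.mono fun x hx => hx.1.1).sub ((h.alm k).contGrad.mono fun x hx => hx.1.2)
  have hwc : ContinuousOn w ((Uj j \ Kj j) ∩ (Uj k \ Kj k) ∩ Kᶜ) :=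
    fun x hx => (hwd x hx).continuousAt.continuousWithinAt
  have hgc : Continuous (gradOf χ) := continuousOn_univ.1
    (continuousOn_gradOf isOpen_univ (hχ.of_le (by simp)).contDiffOn)
  have hzero : ∀ x ∉ S, ψ x = 0 ∧ Gψ x = 0 := fun x hx => by
    simp [hψ, hGψ, hχ0 x hx]
  have hψd : ∀ x, HasFDerivAt ψ (innerSL ℝ (Gψ x)) x := by
    intro x
    by_cases hx : x ∈ S
    · have hχd : HasFDerivAt χ (innerSL ℝ (gradOf χ x)) x := by
        rw [innerSL_gradOf]
        exact ((hχ.differentiable (by simp)) x).hasFDerivAt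
      refine ((hχd.mul hχd).mul (hwd x (hSW hx))).congr_fderiv ?_
      simp only [hGψ, map_add, map_smul, Pi.mul_apply]
      module
    · rw [(hzero x hx).2, map_zero]
      refine (hasFDerivAt_const (0 : ℝ) x).congr_of_eventuallyEq ?_
      filter_upwards [(isClosed_tsupport χ).isOpen_compl.mem_nhds hx] with y hy
        using (hzero y hy).1
  have hGc : Continuous Gψ := by
    refine continuous_iff_continuousAt.2 fun x => ?_
    by_cases hx : x ∈ S
    · have h1 := hDc.continuousAt (hWo.mem_nhds (hSW hx))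
      have h2 := hwc.continuousAt (hWo.mem_nhds (hSW hx))
      have h3 := hχ.continuous.continuousAt (x := x)
      exact ((h3.mul h3).smul h1).add
        (((h3.mul h2).const_mul 2).smul hgc.continuousAt)
    · refine (continuousAt_const (y := (0 : ℂ))).congr ?_
      filter_upwards [(isClosed_tsupport χ).isOpen_compl.mem_nhds hx] with y hy
        using (hzero y hy).2.symm
  have hψc : Continuous ψ := continuous_iff_continuousAt.2 fun x => (hψd x).continuousAt
  have hψbd : ∀ x, |ψ x| ≤ η := fun x => by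
    by_cases hx : x ∈ S
    · obtain ⟨h0, h1⟩ := hχ01 x
      calc |ψ x| = χ x * χ x * |w x| := by
            rw [hψ, abs_mul, abs_of_nonneg (mul_self_nonneg (χ x))]
        _ ≤ 1 * η := mul_le_mul (mul_le_one₀ h1 h0 h1) (hw x hx) (abs_nonneg _) zero_le_one
        _ = η := one_mul η
    · rw [(hzero x hx).1, abs_zero]; exact hη
  have hsob : IsSobolevOn univ ψ Gψ :=
    isSobolevOn_of_hasFDerivAt isOpen_univ hGc.continuousOn fun x _ => hψd x
  obtain ⟨bg, hbg⟩ := hSc.exists_bound_of_continuousOn hGc.continuousOn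
  have hfin : ∀ V : Set ℂ, (∫⁻ x in S \ V, ‖Gψ x‖ₑ ^ 2) < ⊤ := fun V => by
    refine lt_of_le_of_lt (lintegral_mono_set sdiff_subset)
      (lt_of_le_of_lt (setLIntegral_mono' hSc.measurableSet
        (g := fun _ => ENNReal.ofReal (bg ^ 2)) fun x hx => ?_) ?_)
    · rw [enorm_sq_eq]
      exact ENNReal.ofReal_le_ofReal (pow_le_pow_left₀ (norm_nonneg _) (hbg x hx) 2)
    · rw [setLIntegral_const]
      exact ENNReal.mul_lt_top ENNReal.ofReal_lt_top hSc.measure_lt_top
  have hint : ∀ {f : ℂ → ℝ}, ContinuousOn f S → (∀ x ∉ S, f x = 0) → Integrable f :=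
    fun hf h0 => (hf.integrableOn_compact hSc).integrable_of_forall_notMem_eq_zero h0
  have hψint : ∫ x, |ψ x| ≤ η * volume.real S := by
    rw [← setIntegral_eq_integral_of_forall_compl_eq_zero (s := S) fun x hx => by
      rw [(hzero x hx).1, abs_zero]]
    refine le_trans (le_abs_self _) (norm_setIntegral_le_of_norm_le_const (f := fun x => |ψ x|)
      hSc.measure_lt_top fun x _ => ?_)
    simpa using hψbd x
  have hweak : ∀ i, S ⊆ Uj i \ Kj i →
      Integrable (fun x => ⟪Gj i x, Gψ x⟫) ∧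
        |∫ x, ⟪Gj i x, Gψ x⟫| ≤ Aj i * (η * volume.real S) := by
    intro i hi
    refine ⟨hint (((h.alm i).contGrad.mono hi).inner hGc.continuousOn) fun x hx => by
      rw [(hzero x hx).2, inner_zero_right], ?_⟩
    have := (h.alm i).weakEq ψ Gψ S hSc (fun x hx => (hi hx).1) (hsob.mono (subset_univ _))
      ⟨η, hψbd⟩ hzero (hfin _)
    rw [setIntegral_eq_integral_of_forall_compl_eq_zero fun x hx => by
      rw [(hzero x fun hxS => hx (hi hxS)).2, inner_zero_right],
      setIntegral_eq_integral_of_forall_compl_eq_zero fun x hx => by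
        rw [(hzero x fun hxS => hx (hi hxS)).1, abs_zero]] at this
    exact this.trans (mul_le_mul_of_nonneg_left hψint (h.alm i).A_nonneg)
  obtain ⟨hIj, hBj⟩ := hweak j hj
  obtain ⟨hIk, hBk⟩ := hweak k hk
  have hI1 : Integrable fun x => (χ x) ^ 2 * ‖D x‖ ^ 2 :=
    hint ((hχ.continuous.continuousOn.pow 2).mul ((hDc.mono hSW).norm.pow 2))
      fun x hx => by simp [hχ0 x hx]
  have hI2 : Integrable fun x => (w x) ^ 2 * ‖gradOf χ x‖ ^ 2 :=
    hint (((hwc.mono hSW).pow 2).mul (hgc.continuousOn.norm.pow 2))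
      fun x hx => by simp [gradOf_eq_zero hx]
  have hpt : ∀ x, (χ x) ^ 2 * ‖D x‖ ^ 2 ≤
      2 * (⟪Gj j x, Gψ x⟫ - ⟪Gj k x, Gψ x⟫) + 4 * ((w x) ^ 2 * ‖gradOf χ x‖ ^ 2) := by
    intro x
    rw [← inner_sub_left, hGψ, inner_add_right, real_inner_smul_right, real_inner_smul_right,
      show Gj j x - Gj k x = D x from rfl, real_inner_self_eq_norm_sq]
    have h1 := abs_real_inner_le_norm (D x) (gradOf χ x)
    rw [abs_le] at h1
    have h2 : |χ x * w x * ⟪D x, gradOf χ x⟫| ≤ |χ x| * ‖D x‖ * (|w x| * ‖gradOf χ x‖) := by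
      rw [abs_mul, abs_mul]
      calc |χ x| * |w x| * |⟪D x, gradOf χ x⟫| ≤ |χ x| * |w x| * (‖D x‖ * ‖gradOf χ x‖) :=
            mul_le_mul_of_nonneg_left (abs_real_inner_le_norm _ _) (by positivity)
        _ = _ := by ring
    rw [abs_le] at h2
    have h3 := two_mul_le_add_sq (|χ x| * ‖D x‖) (2 * (|w x| * ‖gradOf χ x‖))
    rw [mul_pow, mul_pow, mul_pow, sq_abs, sq_abs] at h3
    linarith [h2.1]
  have hI2' : ∫ x, (w x) ^ 2 * ‖gradOf χ x‖ ^ 2 ≤ (η * b) ^ 2 * volume.real S := by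
    rw [← setIntegral_eq_integral_of_forall_compl_eq_zero (s := S) fun x hx => by
      simp [gradOf_eq_zero hx]]
    refine le_trans (le_abs_self _) (norm_setIntegral_le_of_norm_le_const
      (f := fun x => (w x) ^ 2 * ‖gradOf χ x‖ ^ 2) hSc.measure_lt_top fun x hx => ?_)
    rw [Real.norm_eq_abs, abs_of_nonneg (by positivity), mul_pow, ← sq_abs (w x)]
    exact mul_le_mul (pow_le_pow_left₀ (abs_nonneg _) (hw x hx) 2)
      (pow_le_pow_left₀ (norm_nonneg _) (hb x) 2) (sq_nonneg _) (sq_nonneg _)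
  have hmain : ∫ x, (χ x) ^ 2 * ‖D x‖ ^ 2 ≤
      2 * (Aj j + Aj k) * (η * volume.real S) + 4 * (η * b) ^ 2 * volume.real S := by
    refine (integral_mono hI1 (((hIj.sub hIk).const_mul 2).add (hI2.const_mul 4)) hpt).trans ?_
    simp only [Pi.add_apply, Pi.sub_apply]
    rw [integral_add ((hIj.sub' hIk).const_mul 2) (hI2.const_mul 4), integral_const_mul,
      integral_const_mul, integral_sub hIj hIk]
    rw [abs_le] at hBj hBk
    linarith [hBj.2, hBk.1]
  have hon : IntegrableOn (fun x => ‖D x‖ ^ 2) C :=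
    hI1.integrableOn.congr_fun (fun x hx => by simp [hC1 x hx]) hCm
  calc ∫⁻ x in C, ‖Gj j x - Gj k x‖ₑ ^ 2 = ENNReal.ofReal (∫ x in C, ‖D x‖ ^ 2) :=
        lintegral_enorm_sq_eq hon
    _ ≤ ENNReal.ofReal (∫ x, (χ x) ^ 2 * ‖D x‖ ^ 2) := by
        refine ENNReal.ofReal_le_ofReal (le_of_eq_of_le
          (setIntegral_congr_fun hCm fun x hx => by simp [hC1 x hx])
          (setIntegral_le_integral hI1 (Eventually.of_forall fun x => by positivity)))
    _ ≤ _ := ENNReal.ofReal_le_ofReal hmain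

/-- The gradients are Cauchy in `L²` on compact sets avoiding the limit set. -/
theorem BlowData.cauchy_grad (h : BlowData Uj Kj uj Gj Aj Mj Λj) (hK : IsClosed K)
    (hconv : LocConv univ Kj K)
    (hunif : ∀ S : Set ℂ, IsCompact S → S ⊆ Kᶜ →
      TendstoUniformlyOn (fun j => normFun K (uj j)) v atTop S)
    {C : Set ℂ} (hC : IsCompact C) (hCK : C ⊆ Kᶜ) {ε : ℝ} (hε : 0 < ε) :
    ∀ᶠ k in atTop, ∀ i, k ≤ i → ∀ j, k ≤ j →
      ∫⁻ x in C, ‖Gj i x - Gj j x‖ₑ ^ 2 ≤ ENNReal.ofReal ε := by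
  obtain ⟨χ, hχ, hχc, hχK, hχ01, hχ1⟩ := exists_cutoff hC hK.isOpen_compl hCK
  obtain ⟨b, hb⟩ := hχc.exists_bound_of_continuousOn
    (continuousOn_gradOf isOpen_univ (hχ.of_le (by simp)).contDiffOn |>.mono (subset_univ _))
  have hb' : ∀ x, ‖gradOf χ x‖ ≤ max b 0 := fun x => by
    by_cases hx : x ∈ tsupport χ
    · exact (hb x hx).trans (le_max_left _ _)
    · simp [gradOf_eq_zero hx]
  set V := volume.real (tsupport χ) with hV
  have hV0 : 0 ≤ V := measureReal_nonneg
  obtain ⟨η, hη, hη1, hηε⟩ : ∃ η : ℝ, 0 < η ∧ η ≤ 1 ∧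
      η * (4 * V + 4 * (max b 0) ^ 2 * V) ≤ ε := by
    refine ⟨min 1 (ε / (4 * V + 4 * (max b 0) ^ 2 * V + 1)), by positivity, min_le_left _ _, ?_⟩
    refine (mul_le_mul_of_nonneg_right (min_le_right _ _) (by positivity)).trans ?_
    rw [div_mul_eq_mul_div, div_le_iff₀ (by positivity)]
    nlinarith
  have hev := (h.eventually_regular hK hconv hχc hχK).and
    ((h.tendstoA.eventually_le_const one_pos).and
      (Metric.tendstoUniformlyOn_iff.1 (hunif _ hχc hχK) (η / 2) (half_pos hη)))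
  obtain ⟨N, hN⟩ := eventually_atTop.1 hev
  filter_upwards [eventually_ge_atTop N] with k hk i hi j hj
  obtain ⟨hir, hiA, hiu⟩ := hN i (hk.trans hi)
  obtain ⟨hjr, hjA, hju⟩ := hN j (hk.trans hj)
  refine (h.cauchy_bound hK hχ hχc hχ01 hχK hχ1 hir hjr hη.le (fun x hx => ?_) hb'
    hC.measurableSet).trans (ENNReal.ofReal_le_ofReal ?_)
  · have h1 := hiu x hx
    have h2 := hju x hx
    simp only [Real.dist_eq, abs_lt, abs_le] at *
    constructor <;> linarith
  · have hsq : η ^ 2 ≤ η := by nlinarith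
    have h1 : 2 * (Aj i + Aj j) * (η * V) ≤ 4 * (η * V) :=
      mul_le_mul_of_nonneg_right (by linarith) (by positivity)
    have h2 : 4 * (η * max b 0) ^ 2 * V ≤ 4 * (η * (max b 0) ^ 2) * V := by
      rw [mul_pow]; gcongr
    rw [← hV]
    linarith

/-- The gradient of the `j`-th function, extended by zero. -/
def zeroExt (Uj Kj : ℕ → Set ℂ) (Gj : ℕ → ℂ → ℂ) (j : ℕ) : ℂ → ℂ :=
  (Uj j \ Kj j).indicator (Gj j)

theorem zeroExt_eq {C : Set ℂ} {j : ℕ} (hC : C ⊆ Uj j \ Kj j) {x : ℂ} (hx : x ∈ C) :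
    zeroExt Uj Kj Gj j x = Gj j x := indicator_of_mem (hC hx) _

theorem BlowData.aestronglyMeasurable_zeroExt (h : BlowData Uj Kj uj Gj Aj Mj Λj) (j : ℕ)
    (μ : Set ℂ) : AEStronglyMeasurable (zeroExt Uj Kj Gj j) (volume.restrict μ) :=
  ((aestronglyMeasurable_indicator_iff (h.alm j).isOpen_compl.measurableSet).2
    ((h.alm j).contGrad.aestronglyMeasurable (h.alm j).isOpen_compl.measurableSet)).restrict

/-- Exhaustion of the complement of `K` by compact sets. -/
def exh (K : Set ℂ) (n : ℕ) : Set ℂ :=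
  closedBall 0 (n : ℝ) ∩ {z | ((n : ℝ) + 1)⁻¹ ≤ infDist z K}

theorem isCompact_exh (K : Set ℂ) (n : ℕ) : IsCompact (exh K n) :=
  (isCompact_closedBall _ _).inter_right (isClosed_le continuous_const (continuous_infDist_pt K))

theorem exh_subset (K : Set ℂ) (n : ℕ) : exh K n ⊆ Kᶜ := fun z hz hzK => by
  have h : ((n : ℝ) + 1)⁻¹ ≤ infDist z K := hz.2
  rw [infDist_zero_of_mem hzK] at h
  have : (0 : ℝ) < ((n : ℝ) + 1)⁻¹ := by positivity
  linarith

theorem exh_mono (K : Set ℂ) {m n : ℕ} (hmn : m ≤ n) : exh K m ⊆ exh K n := fun z hz => by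
  have hc : (m : ℝ) ≤ n := by exact_mod_cast hmn
  exact ⟨closedBall_subset_closedBall hc hz.1,
    le_trans (inv_anti₀ (show (0 : ℝ) < (m : ℝ) + 1 by positivity) (by linarith)) hz.2⟩

theorem iUnion_exh (hK : IsClosed K) (hne : K.Nonempty) : ⋃ n, exh K n = Kᶜ := by
  refine subset_antisymm (iUnion_subset (exh_subset K)) fun z hz => ?_
  have hpos : 0 < infDist z K := (hK.notMem_iff_infDist_pos hne).1 hz
  obtain ⟨n, hn⟩ := exists_nat_ge (max ‖z‖ (infDist z K)⁻¹)
  refine mem_iUnion.2 ⟨n, mem_closedBall_zero_iff.2 ((le_max_left _ _).trans hn), ?_⟩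
  show ((n : ℝ) + 1)⁻¹ ≤ infDist z K
  rw [inv_le_comm₀ (by positivity) hpos]
  linarith [le_max_right ‖z‖ (infDist z K)⁻¹]

/-- Selection of an a.e. convergent subsequence of gradients, and the limit gradient. -/
theorem BlowData.exists_limit_grad (h : BlowData Uj Kj uj Gj Aj Mj Λj) (hK : IsClosed K)
    (hne : K.Nonempty) (hconv : LocConv univ Kj K)
    (hunif : ∀ S : Set ℂ, IsCompact S → S ⊆ Kᶜ →
      TendstoUniformlyOn (fun j => normFun K (uj j)) v atTop S) :
    ∃ φ : ℕ → ℕ, StrictMono φ ∧ ∃ G : ℂ → ℂ, AEStronglyMeasurable G (volume.restrict Kᶜ) ∧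
      (∀ᵐ x ∂volume.restrict Kᶜ,
        Tendsto (fun k => zeroExt Uj Kj Gj (φ k) x) atTop (𝓝 (G x))) ∧
      ∀ C : Set ℂ, IsCompact C → C ⊆ Kᶜ →
        Tendsto (fun k => ∫⁻ x in C, ‖Gj (φ k) x - G x‖ₑ ^ 2) atTop (𝓝 0) := by
  obtain ⟨φ, hφ, hP⟩ := extraction_forall_of_eventually fun n =>
    h.cauchy_grad hK hconv hunif (isCompact_exh K n) (exh_subset K n)
      (show (0 : ℝ) < (1 / 4) ^ n by positivity)
  set F : ℕ → ℂ → ℂ := fun k => zeroExt Uj Kj Gj (φ k) with hF
  have hFm : ∀ k s, AEStronglyMeasurable (F k) (volume.restrict s) :=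
    fun k s => h.aestronglyMeasurable_zeroExt (φ k) s
  have hcau : ∀ m, ∀ᵐ x ∂volume.restrict (exh K m), CauchySeq fun k => F k x := by
    intro m
    obtain ⟨N, hN⟩ := eventually_atTop.1
      (hφ.tendsto_atTop.eventually (h.eventually_regular hK hconv (isCompact_exh K m)
        (exh_subset K m)))
    set M := max m N
    set d : ℕ → ℂ → ℝ≥0∞ := fun k x => edist (F (k + M) x) (F (k + M + 1) x)
    have hVfin := (isCompact_exh K m).measure_lt_top (μ := volume)
    have hdb : ∀ k, ∫⁻ x in exh K m, d k x ≤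
        ENNReal.ofReal ((1 / 2) ^ k) * (volume (exh K m) + 1) := by
      intro k
      have h4 := hP (k + M) (φ (k + M)) le_rfl (φ (k + M + 1)) (hφ.monotone (Nat.le_succ _))
      calc ∫⁻ x in exh K m, d k x
          ≤ ∫⁻ x in exh K m, (ENNReal.ofReal ((1 / 2) ^ (k + M)) +
              ENNReal.ofReal (2 ^ (k + M)) * ‖Gj (φ (k + M)) x - Gj (φ (k + M + 1)) x‖ₑ ^ 2) := by
            refine setLIntegral_mono' (isCompact_exh K m).measurableSet fun x hx => ?_
            simp only [d, hF, edist_eq_enorm_sub]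
            rw [zeroExt_eq (hN _ (le_add_left (le_max_right m N))) hx,
              zeroExt_eq (hN _ (le_trans (le_add_left (le_max_right m N)) (Nat.le_succ _))) hx,
              enorm_sq_eq, ← ofReal_norm, ← ENNReal.ofReal_mul (by positivity),
              ← ENNReal.ofReal_add (by positivity) (by positivity)]
            refine ENNReal.ofReal_le_ofReal ?_
            set a : ℝ := 2 ^ (k + M) with ha
            have ha0 : 0 < a := by positivity
            rw [one_div_pow, ← ha]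
            set q := ‖Gj (φ (k + M)) x - Gj (φ (k + M + 1)) x‖
            rw [← mul_le_mul_iff_of_pos_left ha0, mul_add, mul_one_div_cancel ha0.ne']
            nlinarith [sq_nonneg (a * q - 1 / 2)]
        _ = ENNReal.ofReal ((1 / 2) ^ (k + M)) * volume (exh K m) + ENNReal.ofReal (2 ^ (k + M)) *
              ∫⁻ x in exh K m, ‖Gj (φ (k + M)) x - Gj (φ (k + M + 1)) x‖ₑ ^ 2 := by
            rw [lintegral_add_left measurable_const, setLIntegral_const,
              lintegral_const_mul' _ _ ENNReal.ofReal_ne_top]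
        _ ≤ ENNReal.ofReal ((1 / 2) ^ (k + M)) * volume (exh K m) +
              ENNReal.ofReal (2 ^ (k + M)) * ENNReal.ofReal ((1 / 4) ^ (k + M)) := by
            gcongr
            exact (lintegral_mono_set (exh_mono K (le_add_left (le_max_left m N)))).trans h4
        _ = ENNReal.ofReal ((1 / 2) ^ (k + M)) * (volume (exh K m) + 1) := by
            rw [mul_add, mul_one, ← ENNReal.ofReal_mul (by positivity), ← mul_pow]
            norm_num
        _ ≤ _ := by
            gcongr ?_ * _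
            exact ENNReal.ofReal_le_ofReal
              (pow_le_pow_of_le_one (by norm_num) (by norm_num) (Nat.le_add_right k M))
    have hdm : ∀ k, AEMeasurable (d k) (volume.restrict (exh K m)) := fun k => by
      simp only [d, edist_eq_enorm_sub]
      exact ((hFm (k + M) _).sub (hFm (k + M + 1) _)).enorm
    have hsum : ∫⁻ x in exh K m, ∑' k, d k x ≠ ⊤ := by
      rw [lintegral_tsum hdm]
      refine ne_top_of_le_ne_top ?_ (ENNReal.tsum_le_tsum hdb)
      rw [ENNReal.tsum_mul_right,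
        ← ENNReal.ofReal_tsum_of_nonneg (fun k => by positivity) summable_geometric_two]
      exact ENNReal.mul_ne_top ENNReal.ofReal_ne_top (by simp [hVfin.ne])
    filter_upwards [ae_lt_top' (.tsum hdm) hsum] with x hx
    refine (cauchySeq_shift M).1 (cauchySeq_of_edist_le_of_tsum_ne_top (fun k => d k x) (fun k => ?_)
      hx.ne)
    simp only [d]
    rw [show k.succ + M = k + M + 1 by omega]
  set G : ℂ → ℂ := fun x => limUnder atTop fun k => F k x with hG
  have hae : ∀ᵐ x ∂volume.restrict Kᶜ, Tendsto (fun k => F k x) atTop (𝓝 (G x)) := by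
    rw [← iUnion_exh hK hne, ae_restrict_iUnion_iff]
    exact fun m => (hcau m).mono fun x hx => hx.tendsto_limUnder
  refine ⟨φ, hφ, G, aestronglyMeasurable_of_tendsto_ae atTop (fun k => hFm k _) hae, hae,
    fun C hC hCK => ?_⟩
  refine ENNReal.tendsto_nhds_zero.2 fun ε hε => ?_
  obtain ⟨e, -, he0, he⟩ := ENNReal.lt_iff_exists_real_btwn.1 hε
  have he0' : 0 < e := ENNReal.ofReal_pos.1 he0
  obtain ⟨N, hN⟩ := eventually_atTop.1
    ((h.cauchy_grad hK hconv hunif hC hCK he0').and (h.eventually_regular hK hconv hC hCK))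
  filter_upwards [hφ.tendsto_atTop.eventually (eventually_ge_atTop N)] with j hj
  have hlim : ∀ᵐ x ∂volume.restrict C,
      Tendsto (fun k => ‖F j x - F k x‖ₑ ^ 2) atTop (𝓝 (‖Gj (φ j) x - G x‖ₑ ^ 2)) := by
    filter_upwards [ae_restrict_of_ae_restrict_of_subset hCK hae, ae_restrict_mem hC.measurableSet]
      with x hx hxC
    have := ((ENNReal.continuous_pow 2).tendsto _).comp
      (((tendsto_const_nhds (x := F j x)).sub hx).enorm)
    rw [Function.comp_def] at this
    rwa [show F j x = Gj (φ j) x from zeroExt_eq (hN _ hj).2 hxC] at this ⊢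
  calc ∫⁻ x in C, ‖Gj (φ j) x - G x‖ₑ ^ 2
      = ∫⁻ x in C, liminf (fun k => ‖F j x - F k x‖ₑ ^ 2) atTop :=
        lintegral_congr_ae (hlim.mono fun x hx => hx.liminf_eq.symm)
    _ ≤ liminf (fun k => ∫⁻ x in C, ‖F j x - F k x‖ₑ ^ 2) atTop :=
        lintegral_liminf_le' fun k => ((hFm j _).sub (hFm k _)).enorm.pow_const _
    _ ≤ ENNReal.ofReal e := by
        refine liminf_le_of_frequently_le' (Eventually.frequently ?_)
        filter_upwards [hφ.tendsto_atTop.eventually (eventually_ge_atTop N)] with k hk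
        refine le_trans (le_of_eq (setLIntegral_congr_fun hC.measurableSet fun x hx => ?_))
          ((hN N le_rfl).1 _ hj _ hk)
        simp only [hF]
        rw [zeroExt_eq (hN _ hj).2 hx, zeroExt_eq (hN _ hk).2 hx]
    _ ≤ ε := he.le

/-- The limit function has the limit gradient as weak gradient. -/
theorem BlowData.weakGrad_limit (h : BlowData Uj Kj uj Gj Aj Mj Λj) (hK : IsClosed K)
    (hconv : LocConv univ Kj K) (hv : ContinuousOn v Kᶜ)
    (hunif : ∀ S : Set ℂ, IsCompact S → S ⊆ Kᶜ →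
      TendstoUniformlyOn (fun j => normFun K (uj j)) v atTop S)
    {G : ℂ → ℂ} (hG : AEStronglyMeasurable G (volume.restrict Kᶜ))
    (hgrad : ∀ C : Set ℂ, IsCompact C → C ⊆ Kᶜ →
      Tendsto (fun k => ∫⁻ x in C, ‖Gj k x - G x‖ₑ ^ 2) atTop (𝓝 0)) :
    HasWeakGradOn Kᶜ v G := by
  intro φ hφ hc hs e
  set S := tsupport φ with hS
  have hSc : IsCompact S := hc
  have hφ' : Continuous fun x => fderiv ℝ φ x e := continuous_fderiv_apply_const hφ e
  have hφ'0 : ∀ x ∉ S, fderiv ℝ φ x e = 0 := fun x hx => by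
    simp [fderiv_of_notMem_tsupport ℝ hx]
  have hint : ∀ {f : ℂ → ℝ}, IntegrableOn f S → (∀ x ∉ S, f x = 0) → Integrable f :=
    fun hf h0 => hf.integrable_of_forall_notMem_eq_zero h0
  have hv1 : Integrable fun x => v x * fderiv ℝ φ x e :=
    hint (((hv.mono hs).mul hφ'.continuousOn).integrableOn_compact hSc)
      fun x hx => by rw [hφ'0 x hx, mul_zero]
  obtain ⟨b₁, hb₁⟩ := hSc.exists_bound_of_continuousOn hφ'.continuousOn
  obtain ⟨b₂, hb₂⟩ := hSc.exists_bound_of_continuousOn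
    ((hφ.continuous.mul (continuous_const (y := ‖e‖))).continuousOn (s := S))
  have hb20 : 0 ≤ max b₂ 0 := le_max_right _ _
  have hreg := h.eventually_regular hK hconv hSc hs
  have hfin := (hgrad S hSc hs).eventually_lt_const one_pos
  have hkey : ∀ᶠ j in atTop, Integrable (fun x => ⟪G x, e⟫ * φ x) ∧
      ∀ s : ℝ, 0 < s → |(∫ x, v x * fderiv ℝ φ x e) + ∫ x, ⟪G x, e⟫ * φ x| ≤
        |∫ x, (v x - normFun K (uj j) x) * fderiv ℝ φ x e| +
          max b₂ 0 * (s * volume.real S +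
            s⁻¹ * (∫⁻ x in S, ‖Gj j x - G x‖ₑ ^ 2).toReal) := by
    filter_upwards [hreg, hfin] with j hj hjf
    have hWo : IsOpen ((Uj j \ Kj j) ∩ Kᶜ) := (h.alm j).isOpen_compl.inter hK.isOpen_compl
    have hsob : IsSobolevOn ((Uj j \ Kj j) ∩ Kᶜ) (normFun K (uj j)) (Gj j) :=
      isSobolevOn_of_hasFDerivAt hWo ((h.alm j).contGrad.mono inter_subset_left)
        fun x hx => hasFDerivAt_normFun hK hx.2 ((h.alm j).hasGrad x hx.1)
    have hSW : S ⊆ (Uj j \ Kj j) ∩ Kᶜ := fun x hx => ⟨hj hx, hs hx⟩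
    have hid := hsob.2.2 φ hφ hc hSW e
    have hi1 := integrable_mul_fderiv hsob.1 hφ hc hSW e
    have hi2 := integrable_inner_mul_of_tsupport hsob.2.1 hφ.continuous hc hSW e
    have hGS : AEStronglyMeasurable G (volume.restrict S) :=
      hG.mono_measure (Measure.restrict_mono hs le_rfl)
    have hDm : AEStronglyMeasurable (fun x => Gj j x - G x) (volume.restrict S) :=
      (((h.alm j).contGrad.mono hj).aestronglyMeasurable hSc.measurableSet).sub hGS
    have hD2 : IntegrableOn (fun x => ‖Gj j x - G x‖ ^ 2) S := by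
      refine ⟨(hDm.norm.pow 2), (hasFiniteIntegral_iff_ofReal (Eventually.of_forall fun _ =>
        sq_nonneg _)).2 ?_⟩
      simp only [← enorm_sq_eq]
      exact hjf.trans ENNReal.one_lt_top
    have hD2' : ∫ x in S, ‖Gj j x - G x‖ ^ 2 = (∫⁻ x in S, ‖Gj j x - G x‖ₑ ^ 2).toReal := by
      rw [lintegral_enorm_sq_eq hD2,
        ENNReal.toReal_ofReal (integral_nonneg fun _ => sq_nonneg _)]
    have hdom : ∀ s : ℝ, 0 < s → ∀ x ∈ S, |⟪Gj j x - G x, e⟫ * φ x| ≤
        max b₂ 0 * (s + s⁻¹ * ‖Gj j x - G x‖ ^ 2) := by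
      intro s hs' x hx
      have h1 : ‖Gj j x - G x‖ ≤ s + s⁻¹ * ‖Gj j x - G x‖ ^ 2 := by
        rw [← mul_le_mul_iff_of_pos_left hs', mul_add, mul_inv_cancel_left₀ hs'.ne']
        nlinarith [sq_nonneg (s - ‖Gj j x - G x‖), norm_nonneg (Gj j x - G x)]
      calc |⟪Gj j x - G x, e⟫ * φ x| ≤ ‖Gj j x - G x‖ * ‖e‖ * |φ x| := by
            rw [abs_mul]
            exact mul_le_mul_of_nonneg_right (abs_real_inner_le_norm _ _) (abs_nonneg _)
        _ = |φ x| * ‖e‖ * ‖Gj j x - G x‖ := by ring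
        _ ≤ max b₂ 0 * (s + s⁻¹ * ‖Gj j x - G x‖ ^ 2) := by
            refine mul_le_mul ?_ h1 (norm_nonneg _) hb20
            refine le_trans ?_ (le_max_left _ _)
            have := hb₂ x hx
            rwa [Pi.mul_apply, Real.norm_eq_abs, abs_mul, abs_norm] at this
    have hdi : ∀ s : ℝ, IntegrableOn
        (fun x => max b₂ 0 * (s + s⁻¹ * ‖Gj j x - G x‖ ^ 2)) S := fun s =>
      Integrable.const_mul (Integrable.add (integrableOn_const hSc.measure_lt_top.ne)
        (hD2.const_mul _)) _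
    have hi3 : Integrable fun x => ⟪Gj j x - G x, e⟫ * φ x := by
      refine hint (Integrable.mono' (hdi 1) ?_ ?_) fun x hx => by
        rw [image_eq_zero_of_notMem_tsupport hx, mul_zero]
      · exact ((continuous_id.inner (continuous_const (y := e))).comp_aestronglyMeasurable hDm).mul
          hφ.continuous.aestronglyMeasurable
      · filter_upwards [ae_restrict_mem hSc.measurableSet] with x hx
        exact hdom 1 one_pos x hx
    have hi4 : Integrable fun x => ⟪G x, e⟫ * φ x := by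
      refine (hi2.sub hi3).congr (Eventually.of_forall fun x => ?_)
      simp only [Pi.sub_apply, inner_sub_left]
      ring
    refine ⟨hi4, fun s hs' => ?_⟩
    have heq : (∫ x, v x * fderiv ℝ φ x e) + ∫ x, ⟪G x, e⟫ * φ x =
        (∫ x, (v x - normFun K (uj j) x) * fderiv ℝ φ x e) -
          ∫ x, ⟪Gj j x - G x, e⟫ * φ x := by
      simp only [sub_mul, inner_sub_left]
      rw [integral_sub hv1 hi1, integral_sub hi2 hi4, hid]
      ring
    rw [heq]
    refine (abs_sub _ _).trans (add_le_add le_rfl ?_)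
    rw [← setIntegral_eq_integral_of_forall_compl_eq_zero (s := S) fun x hx => by
      rw [image_eq_zero_of_notMem_tsupport hx, mul_zero], ← hD2']
    refine (abs_integral_le_integral_abs).trans
      ((setIntegral_mono_on hi3.abs.integrableOn (hdi s) hSc.measurableSet (hdom s hs')).trans_eq ?_)
    have hs1 : IntegrableOn (fun _ : ℂ => s) S := integrableOn_const hSc.measure_lt_top.ne
    rw [integral_const_mul, integral_add hs1.integrable (hD2.const_mul _), setIntegral_const, integral_const_mul, smul_eq_mul]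
    ring
  have hzero : |(∫ x, v x * fderiv ℝ φ x e) + ∫ x, ⟪G x, e⟫ * φ x| ≤ 0 := by
    refine le_of_forall_pos_le_add fun ε hε => ?_
    rw [zero_add]
    set V := volume.real S with hV
    have hV0 : 0 ≤ V := measureReal_nonneg
    obtain ⟨s, hs0, hsε⟩ : ∃ s : ℝ, 0 < s ∧ max b₂ 0 * (s * V) ≤ ε / 3 := by
      refine ⟨ε / 3 / (max b₂ 0 * V + 1), by positivity, ?_⟩
      rw [← mul_assoc, mul_comm (max b₂ 0), mul_assoc, div_mul_eq_mul_div,
        div_le_iff₀ (by positivity)]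
      nlinarith
    obtain ⟨η, hη, hηε⟩ : ∃ η : ℝ, 0 < η ∧ η * max b₁ 0 * V ≤ ε / 3 := by
      refine ⟨ε / 3 / (max b₁ 0 * V + 1), by positivity, ?_⟩
      rw [mul_assoc, div_mul_eq_mul_div, div_le_iff₀ (by positivity)]
      nlinarith [le_max_right b₁ 0]
    have hI : Tendsto (fun j => max b₂ 0 * (s⁻¹ * (∫⁻ x in S, ‖Gj j x - G x‖ₑ ^ 2).toReal))
        atTop (𝓝 0) := by
      have h1 := (ENNReal.tendsto_toReal ENNReal.zero_ne_top).comp (hgrad S hSc hs)
      simpa [Function.comp_def] using (h1.const_mul s⁻¹).const_mul (max b₂ 0)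
    obtain ⟨j, ⟨-, hj⟩, hju, hjI⟩ := (hkey.and
      ((Metric.tendstoUniformlyOn_iff.1 (hunif S hSc hs) η hη).and
        (hI.eventually_le_const (show (0 : ℝ) < ε / 3 by positivity)))).exists
    refine (hj s hs0).trans ?_
    have hA : |∫ x, (v x - normFun K (uj j) x) * fderiv ℝ φ x e| ≤ η * max b₁ 0 * V := by
      rw [← setIntegral_eq_integral_of_forall_compl_eq_zero (s := S) fun x hx => by
        rw [hφ'0 x hx, mul_zero]]
      refine norm_setIntegral_le_of_norm_le_const (f := fun x =>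
        (v x - normFun K (uj j) x) * fderiv ℝ φ x e) hSc.measure_lt_top fun x hx => ?_
      rw [norm_mul]
      refine mul_le_mul ?_ ((hb₁ x hx).trans (le_max_left _ _)) (norm_nonneg _) hη.le
      rw [← dist_eq_norm]
      exact (hju x hx).le
    rw [mul_add]
    linarith
  linarith [abs_eq_zero.1 (le_antisymm hzero (abs_nonneg _))]

end Vale.Agent.P128.Bridge
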