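import Vale.Agent.P128.Bridge.Spec

/-!
# P128 bridge B3a, part 1: limits of the sets

A subsequence of the sets converges locally in the Hausdorff sense; the limit is reduced and
inherits the length bounds.
-/

open MeasureTheory Set Metric Filter
open scoped ENNReal Topology Real RealInnerProductSpace

noncomputable section

namespace Vale.Agent.P128.Bridge

/-- The hypotheses of the compactness statement. -/
structure BlowData (Uj Kj : ℕ → Set ℂ) (uj : ℕ → ℂ → ℝ) (Gj : ℕ → ℂ → ℂ) (Aj Mj Λj : ℕ → ℝ) :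
    Prop where
  alm : ∀ j, IsAlmostMin (Uj j) (Kj j) (uj j) (Gj j) (Aj j) (Mj j) (Λj j)
  red : ∀ j, IsReducedIn (Uj j) (Kj j)
  exhaust : ∀ R : ℝ, ∀ᶠ j in atTop, closedBall (0 : ℂ) R ⊆ Uj j
  tendstoA : Tendsto Aj atTop (𝓝 0)
  tendstoΛ : Tendsto Λj atTop (𝓝 0)

variable {Uj Kj : ℕ → Set ℂ} {uj : ℕ → ℂ → ℝ} {Gj : ℕ → ℂ → ℂ} {Aj Mj Λj : ℕ → ℝ}

theorem BlowData.comp (h : BlowData Uj Kj uj Gj Aj Mj Λj) {φ : ℕ → ℕ} (hφ : StrictMono φ) :
    BlowData (Uj ∘ φ) (Kj ∘ φ) (uj ∘ φ) (Gj ∘ φ) (Aj ∘ φ) (Mj ∘ φ) (Λj ∘ φ) :=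
  ⟨fun j => h.alm (φ j), fun j => h.red (φ j), fun R => hφ.tendsto_atTop.eventually (h.exhaust R),
    h.tendstoA.comp hφ.tendsto_atTop, h.tendstoΛ.comp hφ.tendsto_atTop⟩

theorem BlowData.eventually_subset (h : BlowData Uj Kj uj Gj Aj Mj Λj) {C : Set ℂ}
    (hC : IsCompact C) : ∀ᶠ j in atTop, C ⊆ Uj j := by
  obtain ⟨R, hR⟩ := hC.isBounded.subset_closedBall (0 : ℂ)
  exact (h.exhaust R).mono fun j hj => hR.trans hj

/-- A compact set avoiding the limit set eventually avoids the sets. -/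
theorem LocConv.eventually_disjoint {K : Set ℂ} (hK : IsClosed K) (hconv : LocConv univ Kj K)
    {C : Set ℂ} (hC : IsCompact C) (hCK : C ⊆ Kᶜ) : ∀ᶠ j in atTop, C ⊆ (Kj j)ᶜ := by
  obtain ⟨δ, hδ, hsub⟩ := hC.exists_cthickening_subset_open hK.isOpen_compl hCK
  filter_upwards [hconv.1 C hC (subset_univ _) δ hδ] with j hj z hz hzK
  obtain ⟨w, hw, hd⟩ := hj z ⟨hzK, hz⟩
  exact hsub (mem_cthickening_of_dist_le w z δ C hz (by rw [dist_comm]; exact hd.le)) hw

theorem BlowData.eventually_regular (h : BlowData Uj Kj uj Gj Aj Mj Λj) {K : Set ℂ}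
    (hK : IsClosed K) (hconv : LocConv univ Kj K) {C : Set ℂ} (hC : IsCompact C) (hCK : C ⊆ Kᶜ) :
    ∀ᶠ j in atTop, C ⊆ Uj j \ Kj j := by
  filter_upwards [h.eventually_subset hC, hconv.eventually_disjoint hK hC hCK] with j h1 h2 z hz
  exact ⟨h1 hz, h2 hz⟩

theorem BlowData.eventually_mul_le (h : BlowData Uj Kj uj Gj Aj Mj Λj) (t : ℝ) {δ : ℝ}
    (hδ : 0 < δ) : ∀ᶠ j in atTop, Λj j * t ≤ δ := by
  have := h.tendstoΛ.mul_const t
  rw [zero_mul] at this
  exact this.eventually_le_const hδ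

/-- Selection of a convergent subsequence of sets. -/
theorem exists_limit_set (h0 : ∀ j, (0 : ℂ) ∈ Kj j) :
    ∃ φ : ℕ → ℕ, StrictMono φ ∧ ∃ K : Set ℂ, IsClosed K ∧ (0 : ℂ) ∈ K ∧
      LocConv univ (Kj ∘ φ) K := by
  let q : ℕ → ℂ := TopologicalSpace.denseSeq ℂ
  have hmem : ∀ j, (fun n => infDist (q n) (Kj j)) ∈ univ.pi fun n => Icc (0 : ℝ) (‖q n‖) :=
    fun j n _ => ⟨infDist_nonneg, by simpa using infDist_le_dist_of_mem (x := q n) (h0 j)⟩
  obtain ⟨a, -, φ, hφ, hlim⟩ :=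
    (isCompact_univ_pi fun n => isCompact_Icc).tendsto_subseq (x := fun j n => infDist (q n) (Kj j))
      hmem
  have hq : ∀ n, Tendsto (fun k => infDist (q n) (Kj (φ k))) atTop (𝓝 (a n)) := fun n =>
    tendsto_pi_nhds.1 hlim n
  have hex : ∀ z, ∃ l, Tendsto (fun k => infDist z (Kj (φ k))) atTop (𝓝 l) := by
    refine fun z => cauchySeq_tendsto_of_complete (Metric.cauchySeq_iff.2 fun ε hε => ?_)
    obtain ⟨n, hn⟩ : ∃ n, dist z (q n) < ε / 3 :=
      (TopologicalSpace.denseRange_denseSeq ℂ).exists_dist_lt z (by positivity)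
    obtain ⟨N, hN⟩ := Metric.cauchySeq_iff.1 (hq n).cauchySeq (ε / 3) (by positivity)
    refine ⟨N, fun k hk l hl => ?_⟩
    have h3 := hN k hk l hl
    simp only [Real.dist_eq, abs_lt] at h3 ⊢
    constructor <;>
      linarith [infDist_le_infDist_add_dist (x := z) (y := q n) (s := Kj (φ k)),
        infDist_le_infDist_add_dist (x := q n) (y := z) (s := Kj (φ k)),
        infDist_le_infDist_add_dist (x := z) (y := q n) (s := Kj (φ l)),
        infDist_le_infDist_add_dist (x := q n) (y := z) (s := Kj (φ l)), dist_comm z (q n)]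
  choose d hd using hex
  have hlip : LipschitzWith 1 d := LipschitzWith.of_le_add fun x y =>
    le_of_tendsto_of_tendsto (hd x) ((hd y).add_const _)
      (Eventually.of_forall fun _ => infDist_le_infDist_add_dist)
  have hnonneg : ∀ z, 0 ≤ d z := fun z =>
    ge_of_tendsto (hd z) (Eventually.of_forall fun _ => infDist_nonneg)
  refine ⟨φ, hφ, {z | d z = 0}, isClosed_eq hlip.continuous continuous_const, ?_, ?_, ?_⟩
  · exact tendsto_nhds_unique (hd 0) (tendsto_const_nhds.congr fun k =>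
      (infDist_zero_of_mem (h0 (φ k))).symm)
  · intro C hC _ ε hε
    let C' : Set ℂ := C ∩ {z | ∀ w ∈ {z | d z = 0}, ε ≤ dist z w}
    have hC' : IsCompact C' := by
      refine hC.inter_right ?_
      simp only [ofPred_forall]
      exact isClosed_biInter fun w _ => isClosed_le continuous_const (continuous_id.dist continuous_const)
    have hpos : ∀ z ∈ C', 0 < d z := fun z hz => lt_of_le_of_ne (hnonneg z) fun h => by
      have := hz.2 z h.symm
      rw [dist_self] at this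
      linarith
    obtain ⟨t, ht, hcov⟩ := hC'.elim_nhds_subcover (fun z => ball z (d z / 2))
      fun z hz => ball_mem_nhds z (by linarith [hpos z hz])
    filter_upwards [(Finset.eventually_all t).2 fun z hz =>
      (hd z).eventually_const_lt (half_lt_self (hpos z (ht z hz)))] with k hk y hy
    by_contra hno
    push Not at hno
    obtain ⟨z, hz, hyz⟩ := mem_iUnion₂.1 (hcov ⟨hy.2, hno⟩)
    have h1 := hk z hz
    have h2 : infDist z (Kj (φ k)) ≤ infDist y (Kj (φ k)) + dist z y := infDist_le_infDist_add_dist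
    rw [infDist_zero_of_mem (show y ∈ Kj (φ k) from hy.1)] at h2
    rw [mem_ball, dist_comm] at hyz
    linarith
  · intro z hz ε hε
    have hdz : d z = 0 := hz.1
    filter_upwards [(hd z).eventually_lt_const (show d z < ε by rw [hdz]; exact hε)] with k hk
    obtain ⟨w, hw, hzw⟩ := (infDist_lt_iff ⟨_, h0 (φ k)⟩).1 hk
    exact ⟨w, hw, hzw⟩

/-- A null compact set is covered by finitely many discs with small total radius. -/
theorem exists_cover_small {S : Set ℂ} (hS : IsCompact S) (h0 : μH[1] S = 0) {ε : ℝ} (hε : 0 < ε) :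
    ∃ (t : Finset ℕ) (x : ℕ → ℂ) (ρ : ℕ → ℝ),
      (∀ n, 0 < ρ n) ∧ S ⊆ ⋃ n ∈ t, ball (x n) (ρ n) ∧ ∑ n ∈ t, ρ n ≤ ε := by
  rw [Measure.hausdorffMeasure_apply] at h0
  have h1 := le_antisymm ((le_iSup₂ (f := fun (r : ℝ≥0∞) (_ : 0 < r) =>
    ⨅ (t : ℕ → Set ℂ) (_ : S ⊆ ⋃ n, t n) (_ : ∀ n, ediam (t n) ≤ r),
      ∑' n, ⨆ _ : (t n).Nonempty, ediam (t n) ^ (1 : ℝ)) 1 one_pos).trans h0.le) bot_le
  have hε2 : (0 : ℝ≥0∞) < ENNReal.ofReal (ε / 2) := by simpa using hε
  rw [← h1] at hε2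
  simp only [iInf_lt_iff] at hε2
  obtain ⟨A, hA, hA1, hAsum⟩ := hε2
  have hfin : ∀ n, ediam (A n) ≠ ⊤ := fun n => ne_top_of_le_ne_top ENNReal.one_ne_top (hA1 n)
  classical
  let x : ℕ → ℂ := fun n => if h : (A n).Nonempty then h.some else 0
  let g : ℕ → ℝ := fun n => if (A n).Nonempty then (ediam (A n)).toReal else 0
  let ρ : ℕ → ℝ := fun n => g n + ε / 4 * (1 / 2) ^ n
  have hg0 : ∀ n, 0 ≤ g n := fun n => by
    simp only [g]; split_ifs <;> simp
  have hρ : ∀ n, 0 < ρ n := fun n => add_pos_of_nonneg_of_pos (hg0 n) (by positivity)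
  have hcov : ∀ n, A n ⊆ ball (x n) (ρ n) := fun n z hz => by
    have hne : (A n).Nonempty := ⟨z, hz⟩
    have hle : dist z (x n) ≤ g n := by
      simp only [g, x, dif_pos hne, if_pos hne]
      rw [dist_edist]
      exact ENNReal.toReal_mono (hfin n) (edist_le_ediam_of_mem hz hne.some_mem)
    rw [mem_ball]
    have : 0 < ε / 4 * (1 / 2) ^ n := by positivity
    simp only [ρ]
    linarith
  obtain ⟨t, ht⟩ := hS.elim_finite_subcover (fun n => ball (x n) (ρ n)) (fun _ => isOpen_ball)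
    (hA.trans (iUnion_mono hcov))
  refine ⟨t, x, ρ, hρ, ht, ?_⟩
  have hsum : ENNReal.ofReal (∑ n ∈ t, g n) ≤ ENNReal.ofReal (ε / 2) := by
    rw [ENNReal.ofReal_sum_of_nonneg fun n _ => hg0 n]
    refine le_trans (le_trans ?_ (ENNReal.sum_le_tsum t)) hAsum.le
    refine Finset.sum_le_sum fun n _ => ?_
    simp only [g]
    split_ifs with hne
    · simp only [hne, iSup_pos, ENNReal.rpow_one]
      exact ENNReal.ofReal_toReal_le
    · simp
  rw [ENNReal.ofReal_le_ofReal_iff (by positivity)] at hsum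
  simp only [ρ, Finset.sum_add_distrib, ← Finset.mul_sum]
  have hgeo : ∑ n ∈ t, (1 / 2 : ℝ) ^ n ≤ 2 :=
    (summable_geometric_two.sum_le_tsum t fun n _ => by positivity).trans_eq tsum_geometric_two
  nlinarith

/-- The limit set is reduced. -/
theorem BlowData.reduced (hU : UpperSpec) (hL : LowerSpec)
    (h : BlowData Uj Kj uj Gj Aj Mj Λj) {K : Set ℂ} (hK : IsClosed K)
    (hconv : LocConv univ Kj K) : IsReduced K := by
  intro z hz r hr
  by_contra hpos
  have h0 : μH[1] (K ∩ closedBall z (r / 2)) = 0 :=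
    measure_mono_null (inter_subset_inter_right _ (closedBall_subset_ball (by linarith)))
      (le_antisymm (not_lt.1 hpos) bot_le)
  obtain ⟨η, δ, hη, hδ, hlow⟩ := hL
  set s := r / 8 with hs
  have hs0 : 0 < s := by positivity
  obtain ⟨ε, hε, hεs⟩ : ∃ ε : ℝ, 0 < ε ∧ (2 * π + 2) * ε < η * s := by
    refine ⟨η * s / (2 * (2 * π + 2)), by positivity, ?_⟩
    field_simp
    linarith
  obtain ⟨t, x, ρ, hρ, hcov, hsum⟩ :=
    exists_cover_small ((isCompact_closedBall z (r / 2)).inter_left hK) h0 hε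
  set V := ⋃ n ∈ t, ball (x n) (ρ n) with hV
  have hVo : IsOpen V := isOpen_biUnion fun _ _ => isOpen_ball
  have hoff : closedBall z (r / 2) \ V ⊆ Kᶜ := fun y hy hyK => hy.2 (hcov ⟨hyK, hy.1⟩)
  have hlam : Tendsto (fun j => ∑ n ∈ t, Λj j * ρ n ^ 2) atTop (𝓝 0) := by
    simpa using tendsto_finsetSum t fun n _ => h.tendstoΛ.mul_const (ρ n ^ 2)
  obtain ⟨j, ⟨w, hwK, hzw⟩, hdisj, hsub, hballs, hΛ, hΛs⟩ := ((hconv.2 z ⟨hz, mem_univ z⟩ s hs0).and
    ((hconv.eventually_disjoint hK ((isCompact_closedBall z (r / 2)).diff hVo) hoff).and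
      ((h.eventually_subset (isCompact_closedBall z r)).and
        (((Finset.eventually_all t).2 fun n _ =>
          h.eventually_subset (isCompact_closedBall (x n) (ρ n))).and
            ((hlam.eventually_le_const hε).and (h.eventually_mul_le s hδ)))))).exists
  rw [dist_comm] at hzw
  have hwsub : closedBall w s ⊆ closedBall z (r / 2) :=
    closedBall_subset_closedBall' (by linarith)
  have hlower := hlow _ _ _ _ _ _ _ (h.alm j) (h.red j) w hwK s hs0
    (hwsub.trans ((closedBall_subset_closedBall (by linarith)).trans hsub)) hΛs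
  have hupper : μH[1] (Kj j ∩ closedBall w s) ≤ ENNReal.ofReal ((2 * π + 2) * ε) := by
    calc μH[1] (Kj j ∩ closedBall w s)
        ≤ μH[1] (⋃ n ∈ t, Kj j ∩ closedBall (x n) (ρ n)) := by
          refine measure_mono fun y hy => ?_
          have hyV : y ∈ V := by
            by_contra hyV
            exact hdisj ⟨hwsub hy.2, hyV⟩ hy.1
          obtain ⟨n, hn, hyn⟩ := mem_iUnion₂.1 hyV
          exact mem_iUnion₂.2 ⟨n, hn, hy.1, ball_subset_closedBall hyn⟩
      _ ≤ ∑ n ∈ t, μH[1] (Kj j ∩ closedBall (x n) (ρ n)) := measure_biUnion_finset_le t _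
      _ ≤ ∑ n ∈ t, ENNReal.ofReal (2 * π * ρ n + Λj j * ρ n ^ 2) :=
          Finset.sum_le_sum fun n hn => le_trans le_add_self
            (hU _ _ _ _ _ _ _ (h.alm j) (x n) (ρ n) (hρ n) (hballs n hn))
      _ = ENNReal.ofReal (∑ n ∈ t, (2 * π * ρ n + Λj j * ρ n ^ 2)) := by
          refine (ENNReal.ofReal_sum_of_nonneg fun n _ => ?_).symm
          have : 0 ≤ Λj j := le_trans (mul_nonneg (h.alm j).A_nonneg (h.alm j).M_nonneg)
            (h.alm j).AM_le
          have := hρ n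
          positivity
      _ ≤ ENNReal.ofReal ((2 * π + 2) * ε) := by
          refine ENNReal.ofReal_le_ofReal ?_
          rw [Finset.sum_add_distrib, ← Finset.mul_sum]
          nlinarith [Real.pi_pos]
  have := (hlower.trans hupper)
  rw [ENNReal.ofReal_le_ofReal_iff (by positivity)] at this
  linarith

/-- Lengths are lower semicontinuous in every disc. -/
theorem BlowData.length_le (hC : ConcSpec) (hLsc : LscSpec)
    (h : BlowData Uj Kj uj Gj Aj Mj Λj) {K : Set ℂ} (hK : IsClosed K)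
    (hconv : LocConv univ Kj K) (c : ℂ) (r : ℝ) :
    μH[1] (K ∩ ball c r) ≤ liminf (fun j => μH[1] (Kj j ∩ ball c r)) atTop := by
  refine hLsc _ _ _ isOpen_ball hK
    ⟨fun C hC _ => hconv.1 C hC (subset_univ _), fun z hz => hconv.2 z ⟨hz.1, mem_univ z⟩⟩
    fun ε hε => ?_
  obtain ⟨k, δ, hk, hδ, hconc⟩ := hC ε hε
  refine ⟨k, hk, fun t ht => ?_⟩
  filter_upwards [h.eventually_subset (isCompact_closedBall c r), h.eventually_mul_le t hδ]
    with j hsub hΛ x hx hxt
  exact hconc _ _ _ _ _ _ _ (h.alm j) (h.red j) x hx t ht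
    (hxt.trans (ball_subset_closedBall.trans hsub)) hΛ

end Vale.Agent.P128.Bridge
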